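import Vale.Agent.P011.D4Z.H408.Lim
import Vale.Agent.P011N.D1.D4X.Defs
import Vale.Agent.P011N.D1.D4X.H691.Na

/-!
Version for big subgroups of `P011.D4Z.H408.Lim`.
-/

open NumberField Topology Filter

set_option linter.unusedSectionVars false

namespace Vale.Agent.P011.D4Z.H408

open Vale.Agent.P011.MPQ Vale.Agent.P011.D4 Vale.Agent.P011.D4.Oct Vale.Agent.P011.D4X

open Vale.Agent.P011.E6 (tripO tripO_apply)

open Vale.Agent.P011.D4X.H637 (qn)

open scoped ComplexConjugate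

section main

variable {k L E : Type} [Field k] [NumberField k] [Field L] [NumberField L] [Field E]
  [NumberField E] [Algebra k L] [Algebra k E] [Algebra L E]
  [IsScalarTower k L E] [NeZero (2 : E)] {ρ σ : E ≃ₐ[k] E} {ρL : L ≃ₐ[k] L} {α : E}
  {a b c : kˣ} {q : Lˣ}

/-- **The limits of the moves**, from the membership. -/
theorem zlim_x_ofB (H : Hy ρ σ ρL α a b c q) [Algebra k ℂ] (W W' W'' : E →ₐ[k] ℂ)
    (hW : (W : E →+* ℂ) ∈ Bd ρ σ q)
    (hW' : (W' : E →+* ℂ) ∈ Bd ρ σ q) (hW'' : (W'' : E →+* ℂ) ∈ Bd ρ σ q)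
    (h' : W' = cmp W ρ) (h'' : W'' = cmp W' ρ)
    {b' c' : kˣ} {j l : Oct a b c} (h : Trip a b' c' gi j l) [NeZero (2 : ℂ)]
    (hmem : ∀ x : Qt (up L a) (q * up L b'), nrd x = 1 → ∃ z ∈ RsB ρ σ α a b c q,
      ∀ y : OctL E a b' c', z (tripO E h y) = tripO E h (zFun ρ (psiL α q x) 1 1 y))
    {X1 X2 X3 : Qt (up ℂ a) (up ℂ b')} (n1 : nrd X1 = 1) (n2 : nrd X2 = 1) (n3 : nrd X3 = 1)
    (r1 : RQ a b' (W α) (W (algebraMap L E q)) X1)
    (r2 : RQ a b' (W α) (W' (algebraMap L E q)) X2)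
    (r3 : RQ a b' (W α) (W'' (algebraMap L E q)) X3) :
    ∃ X ∈ cl (Bd ρ σ q) (RsB ρ σ α a b c q),
      (∀ y : OctL ℂ a b' c', act (X ⟨W, hW⟩) (tripO ℂ h y) =
        tripO ℂ h ⟨X1 * y.fst * star X3, y.snd * star X2⟩) ∧
      (∀ y : OctL ℂ a b' c', act (X ⟨W', hW'⟩) (tripO ℂ h y) =
        tripO ℂ h ⟨X2 * y.fst * star X1, y.snd * star X3⟩) ∧
      (∀ y : OctL ℂ a b' c', act (X ⟨W'', hW''⟩) (tripO ℂ h y) =
        tripO ℂ h ⟨X3 * y.fst * star X2, y.snd * star X1⟩) ∧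
      ∀ V : Bd ρ σ q, V.1.comp (algebraMap k E) ≠ algebraMap k ℂ → X V = 1 := by
  classical
  have ha0 : α ≠ 0 := by
    intro h0
    have h1 := H.α2
    rw [h0, zero_mul] at h1
    exact a.ne_zero ((map_eq_zero _).1 h1.symm)
  have hα0 : W α ≠ 0 := (map_ne_zero W).2 ha0
  have hα : conj (W α) = -W α := by
    have h1 := hW.1 α
    rw [H.σα] at h1
    change W (-α) = conj (W α) at h1
    rw [← h1, map_neg]
  have h2 : W α * W α = algebraMap k ℂ a := by
    rw [← map_mul, H.α2]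
    exact W.commutes _
  have hq0 : algebraMap L E (q : L) ≠ 0 := (map_ne_zero _).2 q.ne_zero
  have a' : W' α = W α := by
    rw [h']
    exact congrArg W H.ρα
  have a'' : W'' α = W α := by
    rw [h'']
    exact (congrArg W' H.ρα).trans a'
  obtain ⟨v1, rfl⟩ := exists_real hα hα0 ((map_ne_zero W).2 hq0) h2 r1
  obtain ⟨v2, rfl⟩ := exists_real hα hα0 ((map_ne_zero W').2 hq0) h2 r2
  obtain ⟨v3, rfl⟩ := exists_real hα hα0 ((map_ne_zero W'').2 hq0) h2 r3
  have hre : ∀ V ∈ Bd ρ σ q, ∃ τ : L →+* ℝ, ∀ y, (τ y : ℂ) = V (algebraMap L E y) :=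
    fun V hV => exists_rl (V := V.comp (algebraMap L E)) fun y => Bd_im hV (H.σL y)
  obtain ⟨w1, hw1⟩ := hre _ hW
  obtain ⟨w2, hw2⟩ := hre _ hW'
  obtain ⟨w3, hw3⟩ := hre _ hW''
  have s2 : ∀ y, w2 y = w1 (ρL y) := by
    intro y
    have h1 : ((w2 y : ℝ) : ℂ) = ((w1 (ρL y) : ℝ) : ℂ) := by
      rw [hw2, hw1, h', ← H.ρL']
      rfl
    exact_mod_cast h1
  have s3 : ∀ y, w3 y = w2 (ρL y) := by
    intro y
    have h1 : ((w3 y : ℝ) : ℂ) = ((w2 (ρL y) : ℝ) : ℂ) := by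
      rw [hw3, hw2, h'', ← H.ρL']
      rfl
    exact_mod_cast h1
  have ρL3 : ∀ y, ρL (ρL (ρL y)) = y := fun y => (algebraMap L E).injective (by
    rw [← H.ρL', ← H.ρL', ← H.ρL', H.ρ3])
  have inj : ∀ τ : L →+* ℝ, (∀ y, τ y = τ (ρL y)) → False := by
    intro τ h1
    apply H.ρ1
    ext y
    exact (τ.injective (h1 y)).symm
  have d12 : w1 ≠ w2 := fun h1 => inj w1 fun y => by rw [← s2, ← h1]
  have d23 : w2 ≠ w3 := fun h1 => inj w2 fun y => by rw [← s3, ← h1]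
  have d13 : w1 ≠ w3 := fun h1 => inj w1 fun y => by
    have h3 : w1 (ρL y) = w3 (ρL y) := by rw [← h1]
    rw [h3, s3, s2, ρL3]
  have c3 : cmp W'' ρ = W := by
    rw [h'', h']
    exact AlgHom.ext fun y => congrArg W (H.ρ3 y)
  set tgt : (L →+* ℝ) → Fin 4 → ℝ := fun τ => if τ = w1 then v1 else if τ = w2 then v2 else
    if τ = w3 then v3 else ![1, 0, 0, 0] with htgt
  have t1 : tgt w1 = v1 := if_pos rfl
  have t2 : tgt w2 = v2 := by simp [htgt, d12.symm]
  have t3 : tgt w3 = v3 := by simp [htgt, d13.symm, d23.symm]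
  have t0 : ∀ τ, τ ≠ w1 → τ ≠ w2 → τ ≠ w3 → tgt τ = ![1, 0, 0, 0] := by
    intro τ g1 g2 g3
    simp only [htgt]
    rw [if_neg g1, if_neg g2, if_neg g3]
  have n2' := n2
  have n3' := n3
  rw [← a'] at n2'
  rw [← a''] at n3'
  have hn : ∀ τ, tgt τ 0 ^ 2 - τ ((up L a : Lˣ) : L) * tgt τ 1 ^ 2 -
      τ ((q * up L b' : Lˣ) : L) * tgt τ 2 ^ 2 +
      τ ((up L a : Lˣ) : L) * τ ((q * up L b' : Lˣ) : L) * tgt τ 3 ^ 2 = 1 := by
    intro τ
    by_cases g1 : τ = w1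
    · rw [g1, t1]
      exact tgt_norm hw1 hα0 h2 n1
    by_cases g2 : τ = w2
    · rw [g2, t2]
      exact tgt_norm hw2 (by rw [a']; exact hα0) (by rw [a']; exact h2) n2'
    by_cases g3 : τ = w3
    · rw [g3, t3]
      exact tgt_norm hw3 (by rw [a'']; exact hα0) (by rw [a'']; exact h2) n3'
    rw [t0 τ g1 g2 g3]
    simp
  obtain ⟨x, hx, hx'⟩ := exists_seq (A := up L a) (B := q * up L b') tgt hn
  choose z hz hz' using fun n => hmem (x n) (hx n)
  have lim1 := lim_mat (P0 := 1) h (V := W) hz' hx' TQ_evq_one hw1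
    (fun y => by rw [← h']; exact hw2 y) (fun y => by rw [← h', ← h'']; exact hw3 y)
  have lim2 := lim_mat (P0 := 1) h (V := W') hz' hx' TQ_evq_one hw2
    (fun y => by rw [← h'']; exact hw3 y) (fun y => by rw [← h'', c3]; exact hw1 y)
  have lim3 := lim_mat (P0 := 1) h (V := W'') hz' hx' TQ_evq_one hw3
    (fun y => by rw [c3]; exact hw1 y) (fun y => by rw [c3, ← h']; exact hw2 y)
  rw [← h', ← h'', t1, t2, t3, a', a''] at lim1
  rw [← h'', c3, t1, t2, t3, a', a''] at lim2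
  rw [c3, ← h', t1, t2, t3, a', a''] at lim3
  have limV : ∀ V : Bd ρ σ q, ∃ M : Matrix (Fin 8) (Fin 8) ℂ,
      Tendsto (fun n => matW V.1 (z n)) atTop (𝓝 M) ∧
        (V.1.comp (algebraMap k E) ≠ algebraMap k ℂ → M = 1) := by
    rintro ⟨V, hV⟩
    by_cases g : V.comp (algebraMap k E) = algebraMap k ℂ
    · let U : E →ₐ[k] ℂ := { V with commutes' := fun t => RingHom.congr_fun g t }
      have b1 := Bd_rho H _ hV
      have b2 := Bd_rho H _ b1
      obtain ⟨τ1, h1⟩ := hre _ hV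
      obtain ⟨τ2, h2⟩ := hre _ b1
      obtain ⟨τ3, h3⟩ := hre _ b2
      exact ⟨_, lim_mat (P0 := 1) h (V := U) hz' hx' TQ_evq_one h1 h2 h3, fun g' => absurd g g'⟩
    · refine ⟨1, lim_off H h hV hz' hx' fun τ hτ => t0 τ ?_ ?_ ?_, fun _ => rfl⟩
      · rintro rfl
        apply g
        ext t
        change V (algebraMap k E t) = _
        rw [← hτ, hw1, ← IsScalarTower.algebraMap_apply k L E]
        exact W.commutes t
      · rintro rfl
        apply g
        ext t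
        change V (algebraMap k E t) = _
        rw [← hτ, hw2, ← IsScalarTower.algebraMap_apply k L E]
        exact W'.commutes t
      · rintro rfl
        apply g
        ext t
        change V (algebraMap k E t) = _
        rw [← hτ, hw3, ← IsScalarTower.algebraMap_apply k L E]
        exact W''.commutes t
  choose M hM hM' using limV
  refine ⟨M, ?_, fun y => ?_, fun y => ?_, fun y => ?_, hM'⟩
  · refine mem_closure_of_tendsto (f := fun n => mat (Bd ρ σ q) (z n)) (b := atTop) ?_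
      (Eventually.of_forall fun n => ⟨z n, hz n, rfl⟩)
    exact tendsto_pi_nhds.2 fun V => hM V
  · rw [tendsto_nhds_unique (hM ⟨W, hW⟩) lim1, act_mC, zC_apply, one_mul]
  · rw [tendsto_nhds_unique (hM ⟨W', hW'⟩) lim2, act_mC, zC_apply, one_mul]
  · rw [tendsto_nhds_unique (hM ⟨W'', hW''⟩) lim3, act_mC, zC_apply, one_mul]

end main

end Vale.Agent.P011.D4Z.H408
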